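import Mathlib.Analysis.InnerProductSpace.JointEigenspace
import Mathlib.Analysis.InnerProductSpace.PiL2
import Mathlib.Analysis.Matrix.Hermitian
import Mathlib.LinearAlgebra.Matrix.Trace

/-! Rank one projections of an orthonormal basis and simultaneous diagonalisation. -/

set_option linter.unusedSectionVars false

namespace Vale.Agent.N355B

open Matrix Finset

abbrev M6 := Matrix (Fin 6) (Fin 6) ℂ

/-- orthonormal basis in coordinates -/
def ON (v : Fin 6 → Fin 6 → ℂ) : Prop :=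
  ∀ k l, ∑ r, star (v k r) * v l r = if k = l then 1 else 0

/-- unbiased bases -/
def UB (v w : Fin 6 → Fin 6 → ℂ) : Prop := ∀ k l, ‖∑ r, star (v k r) * w l r‖ ^ 2 = 1 / 6

/-- `n` mutually unbiased bases exist -/
def MUB (n : ℕ) : Prop :=
  ∃ v : Fin n → Fin 6 → Fin 6 → ℂ, (∀ i, ON (v i)) ∧ ∀ i j, i ≠ j → UB (v i) (v j)

/-- the projection onto the line of `x` -/
def Pr (x : Fin 6 → ℂ) : M6 := fun r s => x r * star (x s)

theorem Pr_ct (x : Fin 6 → ℂ) : (Pr x)ᴴ = Pr x := by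
  ext r s
  simp [Pr, Matrix.conjTranspose_apply, mul_comm]

theorem Pr_mul (x y : Fin 6 → ℂ) (r s : Fin 6) :
    (Pr x * Pr y) r s = (∑ t, star (x t) * y t) * (x r * star (y s)) := by
  simp only [Matrix.mul_apply, Pr, Finset.sum_mul]
  exact Finset.sum_congr rfl fun t _ => by ring

theorem tr_Pr_mul (x y : Fin 6 → ℂ) :
    (Pr x * Pr y).trace = ((‖∑ t, star (x t) * y t‖ ^ 2 : ℝ) : ℂ) := by
  simp only [Matrix.trace, Matrix.diag_apply, Pr_mul]
  rw [← Finset.mul_sum]
  have : ∑ r, x r * star (y r) = star (∑ t, star (x t) * y t) := by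
    rw [star_sum]
    exact Finset.sum_congr rfl fun t _ => by rw [star_mul, star_star, mul_comm]
  rw [this, Complex.star_def, Complex.mul_conj']
  push_cast
  rfl

variable {v w : Fin 6 → Fin 6 → ℂ}

theorem ON.Pr_mul_Pr (h : ON v) (k l : Fin 6) :
    Pr (v k) * Pr (v l) = if k = l then Pr (v k) else 0 := by
  ext r s
  rw [Pr_mul, h]
  split_ifs with hkl
  · subst hkl; simp [Pr]
  · simp

theorem ON.tr_Pr (h : ON v) (k : Fin 6) : (Pr (v k)).trace = 1 := by
  have := h k k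
  rw [if_pos rfl] at this
  rw [← this]
  exact Finset.sum_congr rfl fun r _ => mul_comm _ _

theorem ON.sum_Pr (h : ON v) : ∑ k, Pr (v k) = 1 := by
  have h1 : (Matrix.of fun k r => star (v k r)) * (Matrix.of fun r k => v k r : M6) = 1 := by
    ext k l
    rw [Matrix.mul_apply, Matrix.one_apply, ← h]
    rfl
  have h2 := mul_eq_one_comm.1 h1
  ext r s
  rw [← h2, Matrix.mul_apply, Matrix.sum_apply]
  rfl

/-- diagonal in the basis `v` -/
def Dg (v : Fin 6 → Fin 6 → ℂ) (x : M6) : Prop := ∃ c : Fin 6 → ℂ, x = ∑ k, c k • Pr (v k)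

theorem ON.dg_of_eig (h : ON v) {x : M6} (hx : ∀ k, ∃ c : ℂ, x.mulVec (v k) = c • v k) :
    Dg v x := by
  choose c hc using hx
  refine ⟨c, ?_⟩
  rw [← Matrix.mul_one x, ← h.sum_Pr, Finset.mul_sum]
  refine Finset.sum_congr rfl fun k _ => ?_
  ext r s
  have := congrFun (hc k) r
  simp only [Matrix.mulVec, dotProduct, Pi.smul_apply, smul_eq_mul] at this
  simp only [Matrix.mul_apply, Pr, Matrix.smul_apply, smul_eq_mul, ← mul_assoc, ← Finset.sum_mul,
    this]

theorem ON.dg_of_comm (h : ON v) {x : M6} (hx : ∀ k, x * Pr (v k) = Pr (v k) * x) : Dg v x := by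
  refine ⟨fun k => ∑ a, ∑ b, star (v k a) * x a b * v k b, ?_⟩
  have h0 : x = ∑ k, x * Pr (v k) := by rw [← Finset.mul_sum, h.sum_Pr, Matrix.mul_one]
  refine h0.trans (Finset.sum_congr rfl fun k _ => ?_)
  have h1 : x * Pr (v k) = Pr (v k) * x * Pr (v k) := by
    rw [← hx, Matrix.mul_assoc, h.Pr_mul_Pr, if_pos rfl]
  rw [h1]
  ext r s
  simp only [Matrix.mul_apply, Pr, Matrix.smul_apply, smul_eq_mul, Finset.sum_mul]
  rw [Finset.sum_comm]
  exact Finset.sum_congr rfl fun a _ => Finset.sum_congr rfl fun b _ => by ring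

theorem ON.dg_comm (h : ON v) {x y : M6} (hx : Dg v x) (hy : Dg v y) : x * y = y * x := by
  obtain ⟨c, rfl⟩ := hx
  obtain ⟨d, rfl⟩ := hy
  simp only [Finset.sum_mul_sum, smul_mul_smul_comm, h.Pr_mul_Pr, smul_ite, smul_zero,
    Finset.sum_ite_eq, Finset.mem_univ, if_true, mul_comm]

theorem dg_Pr (v : Fin 6 → Fin 6 → ℂ) (k : Fin 6) : Dg v (Pr (v k)) :=
  ⟨Pi.single k 1, by
    rw [Finset.sum_eq_single k]
    · simp
    · intro l _ hl; simp [hl]
    · intro h; exact absurd (Finset.mem_univ _) h⟩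

theorem tr_dg (hv : ON v) (hw : ON w) (h : UB v w) {x y : M6} (hx : Dg v x) (hy : Dg w y) :
    6 * (x * y).trace = x.trace * y.trace := by
  obtain ⟨c, rfl⟩ := hx
  obtain ⟨d, rfl⟩ := hy
  simp only [Finset.sum_mul_sum, smul_mul_smul_comm, Matrix.trace_sum, Matrix.trace_smul,
    tr_Pr_mul, h _ _, hv.tr_Pr, hw.tr_Pr, smul_eq_mul]
  simp only [Finset.mul_sum]
  exact Finset.sum_congr rfl fun k _ => Finset.sum_congr rfl fun l _ => by push_cast; ring

theorem ub_of_tr (h : ∀ k l, 6 * (Pr (v k) * Pr (w l)).trace = 1) : UB v w := by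
  intro k l
  have h1 := h k l
  rw [tr_Pr_mul] at h1
  have h2 : 6 * ‖∑ t, star (v k t) * w l t‖ ^ 2 = (1 : ℝ) := by exact_mod_cast h1
  linarith

theorem exists_dg_herm {ι : Type} (T : ι → M6) (hT : ∀ i, (T i).IsHermitian)
    (hC : ∀ i j, T i * T j = T j * T i) :
    ∃ v, ON v ∧ ∀ i k, ∃ c : ℂ, (T i).mulVec (v k) = c • v k := by
  classical
  let S : ι → Module.End ℂ (EuclideanSpace ℂ (Fin 6)) := fun i => (T i).toEuclideanLin
  have hS : ∀ i, (S i).IsSymmetric := fun i => Matrix.isSymmetric_toEuclideanLin_iff.2 (hT i)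
  have hc : Pairwise (Function.onFun Commute S) := by
    intro i j _
    refine LinearMap.ext fun z => ?_
    ext r
    change ((T i).mulVec ((T j).mulVec z.ofLp)) r = ((T j).mulVec ((T i).mulVec z.ofLp)) r
    rw [Matrix.mulVec_mulVec, Matrix.mulVec_mulVec, hC]
  have h1 := LinearMap.IsSymmetric.directSum_isInternal_of_pairwise_commute hS hc
  have h2 := LinearMap.IsSymmetric.orthogonalFamily_iInf_eigenspaces hS
  let V : (ι → ℂ) → Submodule ℂ (EuclideanSpace ℂ (Fin 6)) :=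
    fun α => ⨅ j, Module.End.eigenspace (S j) (α j)
  let _ : Fintype {α // V α ≠ ⊥} := h2.independent.fintypeNeBotOfFiniteDimensional
  have h3 := DirectSum.isInternal_ne_bot_iff.2 h1
  have h4 := h2.comp (Subtype.val_injective (p := fun α => V α ≠ ⊥))
  let b := h3.subordinateOrthonormalBasis (finrank_euclideanSpace_fin (𝕜 := ℂ) (n := 6)) h4
  refine ⟨fun k r => b k r, fun k l => ?_, fun i k => ?_⟩
  · have h5 := orthonormal_iff_ite.1 b.orthonormal k l
    rw [← h5, PiLp.inner_apply]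
    refine Finset.sum_congr rfl fun r _ => ?_
    rw [RCLike.inner_apply, mul_comm]
    rfl
  · have h5 := h3.subordinateOrthonormalBasis_subordinate
      (finrank_euclideanSpace_fin (𝕜 := ℂ) (n := 6)) k h4
    have h6 := Module.End.mem_eigenspace_iff.1 ((Submodule.mem_iInf _).1 h5 i)
    exact ⟨_, congrArg WithLp.ofLp h6⟩

/-- commuting matrices that also commute with the adjoints are simultaneously diagonal -/
theorem exists_dg (S : Set M6) (h1 : ∀ x ∈ S, ∀ y ∈ S, x * y = y * x)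
    (h2 : ∀ x ∈ S, ∀ y ∈ S, x * yᴴ = yᴴ * x) : ∃ v, ON v ∧ ∀ x ∈ S, Dg v x := by
  have h3 : ∀ x ∈ S, ∀ y ∈ S, xᴴ * yᴴ = yᴴ * xᴴ := fun x hx y hy => by
    rw [← Matrix.conjTranspose_mul, ← Matrix.conjTranspose_mul, h1 x hx y hy]
  obtain ⟨v, hv, h⟩ := exists_dg_herm (ι := S × Bool)
    (fun p => if p.2 then p.1.1 + p.1.1ᴴ else Complex.I • (p.1.1 - p.1.1ᴴ)) (by
      rintro ⟨x, _ | _⟩
      · simp only [Matrix.IsHermitian, Bool.false_eq_true, if_false, Matrix.conjTranspose_smul,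
          Matrix.conjTranspose_sub, Matrix.conjTranspose_conjTranspose, Complex.star_def,
          Complex.conj_I]
        module
      · simp [Matrix.IsHermitian, add_comm]) (by
      rintro ⟨⟨x, hx⟩, a⟩ ⟨⟨y, hy⟩, b⟩
      have e1 := h1 x hx y hy
      have e2 := h2 x hx y hy
      have e3 := h2 y hy x hx
      have e4 := h3 x hx y hy
      cases a <;> cases b <;>
        simp only [Bool.false_eq_true, if_false, if_true, Matrix.smul_mul, Matrix.mul_smul, add_mul,
          mul_add, sub_mul, mul_sub, e1, e2, e3, e4] <;> module)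
  refine ⟨v, hv, fun x hx => hv.dg_of_eig fun k => ?_⟩
  obtain ⟨c, hc⟩ := h (⟨x, hx⟩, true) k
  obtain ⟨d, hd⟩ := h (⟨x, hx⟩, false) k
  simp only [Bool.false_eq_true, if_false, if_true, Matrix.add_mulVec, Matrix.smul_mulVec,
    Matrix.sub_mulVec] at hc hd
  refine ⟨(c - Complex.I * d) / 2, ?_⟩
  funext r
  have e1 := congrFun hc r
  have e2 := congrFun hd r
  simp only [Pi.add_apply, Pi.smul_apply, Pi.sub_apply, smul_eq_mul] at e1 e2 ⊢
  linear_combination (1 / 2) * e1 - Complex.I / 2 * e2 +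
    ((x.mulVec (v k)) r - (xᴴ.mulVec (v k)) r) / 2 * Complex.I_mul_I

end Vale.Agent.N355B
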