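import Mathlib.Algebra.Lie.CartanSubalgebra
import Mathlib.Algebra.Lie.Classical
import Mathlib.Algebra.Lie.TraceForm
import Mathlib.Algebra.Star.Subalgebra
import Mathlib.Analysis.Matrix.PosDef
import Vale.Agent.N355B.Diag

/-! Maximal abelian subalgebras and Cartan subalgebras. -/

set_option linter.unusedSectionVars false

namespace Vale.Agent.N355B

open Matrix Finset

theorem masa_iff (n : ℕ) :
    (∃ A : Fin n → StarSubalgebra ℂ M6, (∀ i, Set.centralizer (A i : Set M6) = A i) ∧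
      ∀ i j, i ≠ j → ∀ a ∈ A i, ∀ b ∈ A j, 6 * (a * b).trace = a.trace * b.trace) ↔ MUB n := by
  constructor
  · rintro ⟨A, h1, h2⟩
    have hc : ∀ i, ∀ x ∈ (A i : Set M6), ∀ y ∈ (A i : Set M6), x * y = y * x := by
      intro i x hx y hy
      rw [← h1 i] at hy
      exact hy x hx
    choose v hv hd using fun i => exists_dg (A i) (hc i)
      (fun x hx y hy => hc i x hx _ (star_mem (s := A i) hy))
    have hP : ∀ i k, Pr (v i k) ∈ A i := by
      intro i k
      have : Pr (v i k) ∈ Set.centralizer (A i : Set M6) := fun x hx =>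
        (hv i).dg_comm (hd i x hx) (dg_Pr _ k)
      rwa [h1] at this
    refine ⟨v, hv, fun i j hij => ub_of_tr fun k l => ?_⟩
    rw [h2 i j hij _ (hP i k) _ (hP j l), (hv i).tr_Pr, (hv j).tr_Pr, one_mul]
  · rintro ⟨v, hv, hu⟩
    have hm : ∀ i x, x ∈ StarSubalgebra.centralizer ℂ (Set.range fun k => Pr (v i k)) ↔
        Dg (v i) x := by
      intro i x
      rw [StarSubalgebra.mem_centralizer_iff]
      constructor
      · intro h
        exact (hv i).dg_of_comm fun k => (h _ ⟨k, rfl⟩).1.symm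
      · rintro h _ ⟨k, rfl⟩
        have := (hv i).dg_comm (dg_Pr _ k) h
        exact ⟨this, by rw [Matrix.star_eq_conjTranspose, Pr_ct]; exact this⟩
    refine ⟨fun i => StarSubalgebra.centralizer ℂ (Set.range fun k => Pr (v i k)), fun i => ?_,
      fun i j hij a ha b hb => tr_dg (hv i) (hv j) (hu i j hij) ((hm i a).1 ha) ((hm j b).1 hb)⟩
    ext x
    rw [SetLike.mem_coe, hm]
    constructor
    · intro h
      exact (hv i).dg_of_comm fun k => (h _ ((hm i _).2 (dg_Pr _ k))).symm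
    · intro h y hy
      exact (hv i).dg_comm ((hm i y).1 hy) h

open LieAlgebra.SpecialLinear

attribute [local instance 100] LieRing.ofAssociativeRing

abbrev SL6 := sl (Fin 6) ℂ

theorem mem_sl {x : M6} : x ∈ SL6 ↔ x.trace = 0 := Iff.rfl

theorem trace_sandwich (a b : M6) :
    LinearMap.trace ℂ M6 (LinearMap.mulLeft ℂ a ∘ₗ LinearMap.mulRight ℂ b) =
      a.trace * b.trace := by
  rw [LinearMap.trace_eq_matrix_trace ℂ (Matrix.stdBasis ℂ (Fin 6) (Fin 6)), Matrix.trace,
    Fintype.sum_prod_type, Matrix.trace, Matrix.trace, Finset.sum_mul_sum]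
  refine Finset.sum_congr rfl fun i _ => Finset.sum_congr rfl fun j _ => ?_
  rw [Matrix.diag_apply, LinearMap.toMatrix_apply, Matrix.stdBasis_eq_single]
  simp [Matrix.stdBasis, Matrix.mul_apply, Matrix.single_apply, ite_and]

theorem killing_eq (x y : SL6) : killingForm ℂ SL6 x y = 12 * (x.1 * y.1).trace := by
  let f : M6 →ₗ[ℂ] M6 := LieAlgebra.ad ℂ M6 x.1 ∘ₗ LieAlgebra.ad ℂ M6 y.1
  have hf : ∀ z, f z ∈ SL6.toSubmodule := fun z => by
    change (x.1 * ⁅y.1, z⁆ - ⁅y.1, z⁆ * x.1).trace = 0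
    rw [Matrix.trace_sub, Matrix.trace_mul_comm, sub_self]
  have h1 := LinearMap.trace_restrict_eq_of_forall_mem SL6.toSubmodule f hf
  have h2 : f = LinearMap.mulLeft ℂ (x.1 * y.1) ∘ₗ LinearMap.mulRight ℂ 1 -
      LinearMap.mulLeft ℂ x.1 ∘ₗ LinearMap.mulRight ℂ y.1 -
      LinearMap.mulLeft ℂ y.1 ∘ₗ LinearMap.mulRight ℂ x.1 +
      LinearMap.mulLeft ℂ 1 ∘ₗ LinearMap.mulRight ℂ (y.1 * x.1) := by
    refine LinearMap.ext fun z => ?_
    change x.1 * (y.1 * z - z * y.1) - (y.1 * z - z * y.1) * x.1 =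
      x.1 * y.1 * (z * 1) - x.1 * (z * y.1) - y.1 * (z * x.1) + 1 * (z * (y.1 * x.1))
    noncomm_ring
  rw [killingForm_apply_apply]
  refine Eq.trans ?_ (h1.trans ?_)
  · rfl
  · rw [h2, map_add, map_sub, map_sub, trace_sandwich, trace_sandwich, trace_sandwich,
      trace_sandwich, mem_sl.1 x.2, mem_sl.1 y.2, Matrix.trace_mul_comm y.1, Matrix.trace_one]
    simp only [Fintype.card_fin]
    push_cast
    ring

open scoped ComplexOrder in
theorem herm_iter {h : M6} (hh : hᴴ = h) (k : ℕ) (y : M6)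
    (hy : (fun w => h * w - w * h)^[k + 1] y = 0) : h * y = y * h := by
  induction k with
  | zero => exact sub_eq_zero.1 hy
  | succ k ih =>
    refine ih ?_
    rw [Function.iterate_succ_apply', Function.iterate_succ_apply'] at hy
    rw [Function.iterate_succ_apply']
    set w := (fun w => h * w - w * h)^[k] y
    rw [← Matrix.trace_conjTranspose_mul_self_eq_zero_iff]
    have h1 : ((h * w - w * h)ᴴ * (h * w - w * h)).trace =
        (wᴴ * (h * (h * w - w * h) - (h * w - w * h) * h)).trace := by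
      rw [Matrix.conjTranspose_sub, Matrix.conjTranspose_mul, Matrix.conjTranspose_mul, hh,
        sub_mul, Matrix.mul_sub wᴴ, Matrix.trace_sub, Matrix.trace_sub, Matrix.mul_assoc,
        Matrix.mul_assoc, Matrix.trace_mul_comm h, Matrix.mul_assoc]
    rw [h1, hy, Matrix.mul_zero, Matrix.trace_zero]

theorem cartan_comm (H : LieSubalgebra ℂ SL6) (hn : LieRing.IsNilpotent H)
    (hs : ∀ x ∈ H, ∃ y ∈ H, y.1 = x.1ᴴ) {x y : SL6} (hx : x ∈ H) (hy : y ∈ H) :
    x.1 * y.1 = y.1 * x.1 := by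
  obtain ⟨k, hk⟩ := LieModule.exists_forall_pow_toEnd_eq_zero ℂ H H
  have h1 : ∀ z ∈ H, z.1ᴴ = z.1 → z.1 * y.1 = y.1 * z.1 := by
    intro z hz hh
    have h2 : ∀ m, ((LieModule.toEnd ℂ H H ⟨z, hz⟩ ^ m) ⟨y, hy⟩).1.1 =
        (fun w => z.1 * w - w * z.1)^[m] y.1 := by
      intro m
      induction m with
      | zero => rfl
      | succ m ih =>
        rw [Function.iterate_succ_apply', ← ih, pow_succ']
        rfl
    refine herm_iter hh k _ ?_
    rw [← h2, pow_succ', hk, mul_zero]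
    rfl
  obtain ⟨x', hx', e⟩ := hs x hx
  have h3 := h1 (x + x') (H.add_mem hx hx') (by
    change (x.1 + x'.1)ᴴ = x.1 + x'.1
    rw [e, Matrix.conjTranspose_add, Matrix.conjTranspose_conjTranspose, add_comm])
  have h4 := h1 (Complex.I • (x - x')) (H.smul_mem _ (H.sub_mem hx hx')) (by
    change (Complex.I • (x.1 - x'.1))ᴴ = Complex.I • (x.1 - x'.1)
    rw [e]
    simp only [Matrix.conjTranspose_smul, Matrix.conjTranspose_sub,
      Matrix.conjTranspose_conjTranspose, Complex.star_def, Complex.conj_I]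
    module)
  change (x.1 + x'.1) * y.1 = y.1 * (x.1 + x'.1) at h3
  change (Complex.I • (x.1 - x'.1)) * y.1 = y.1 * (Complex.I • (x.1 - x'.1)) at h4
  rw [Matrix.smul_mul, Matrix.mul_smul] at h4
  have h5 := smul_right_injective M6 Complex.I_ne_zero h4
  rw [add_mul, mul_add] at h3
  rw [sub_mul, mul_sub] at h5
  have h6 : (2 : ℂ) • (x.1 * y.1) = (2 : ℂ) • (y.1 * x.1) := by
    linear_combination (norm := module) h3 + h5
  exact smul_right_injective M6 two_ne_zero h6

/-- the traceless part of a projection -/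
noncomputable def P0 {v : Fin 6 → Fin 6 → ℂ} (h : ON v) (k : Fin 6) : SL6 :=
  ⟨Pr (v k) - (1 / 6 : ℂ) • 1, by
    rw [mem_sl, Matrix.trace_sub, h.tr_Pr, Matrix.trace_smul, Matrix.trace_one]
    norm_num⟩

/-- the traceless matrices diagonal in a basis -/
def Hd {v : Fin 6 → Fin 6 → ℂ} (h : ON v) : LieSubalgebra ℂ SL6 where
  carrier := {x | Dg v x.1}
  add_mem' := by
    rintro x y ⟨c, hc⟩ ⟨d, hd⟩
    refine ⟨c + d, ?_⟩
    change x.1 + y.1 = _
    rw [hc, hd, ← Finset.sum_add_distrib]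
    simp [add_smul]
  zero_mem' := ⟨0, by simp⟩
  smul_mem' := by
    rintro a x ⟨c, hc⟩
    refine ⟨a • c, ?_⟩
    change a • x.1 = _
    rw [hc, Finset.smul_sum]
    simp [smul_smul]
  lie_mem' := by
    intro x y hx hy
    refine ⟨0, ?_⟩
    rw [sl_bracket, h.dg_comm hx hy]
    simp

theorem Hd_cartan {v : Fin 6 → Fin 6 → ℂ} (h : ON v) : (Hd h).IsCartanSubalgebra where
  nilpotent := by
    have : IsLieAbelian (Hd h) := ⟨fun x y => Subtype.ext (Subtype.ext (by
      change x.1.1 * y.1.1 - y.1.1 * x.1.1 = 0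
      rw [h.dg_comm x.2 y.2, sub_self]))⟩
    infer_instance
  self_normalizing := by
    refine le_antisymm (fun x hx => ?_) (Hd h).le_normalizer
    rw [LieSubalgebra.mem_normalizer_iff] at hx
    refine h.dg_of_comm fun k => ?_
    have h1 : P0 h k ∈ Hd h := h.dg_of_comm fun l => by
      change (Pr (v k) - (1 / 6 : ℂ) • 1) * _ = _ * (Pr (v k) - (1 / 6 : ℂ) • 1)
      rw [sub_mul, mul_sub, h.dg_comm (dg_Pr v k) (dg_Pr v l)]
      simp
    have h2 := h.dg_comm (hx _ h1) (dg_Pr v k)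
    have h3 : ⁅x, P0 h k⁆.1 = x.1 * Pr (v k) - Pr (v k) * x.1 := by
      change x.1 * (Pr (v k) - (1 / 6 : ℂ) • 1) - (Pr (v k) - (1 / 6 : ℂ) • 1) * x.1 = _
      rw [sub_mul, mul_sub]
      simp
    have h4 : Pr (v k) * Pr (v k) = Pr (v k) := by rw [h.Pr_mul_Pr, if_pos rfl]
    rw [h3] at h2
    set p := Pr (v k)
    rw [sub_mul, mul_sub, Matrix.mul_assoc x.1, h4, ← Matrix.mul_assoc p p, h4,
      ← Matrix.mul_assoc] at h2
    have h5 := congrArg (· * p) h2
    have h6 := congrArg (p * ·) h2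
    simp only [sub_mul, Matrix.mul_assoc, h4] at h5
    simp only [mul_sub, ← Matrix.mul_assoc, h4] at h6
    simp only [← Matrix.mul_assoc] at h5
    rw [sub_self, sub_eq_zero] at h5
    rw [sub_self, eq_comm, sub_eq_zero] at h6
    rw [h5, h6]

theorem cartan_iff (n : ℕ) :
    (∃ H : Fin n → LieSubalgebra ℂ SL6, (∀ i, (H i).IsCartanSubalgebra) ∧
      (∀ i, ∀ x ∈ H i, ∃ y ∈ H i, y.1 = x.1ᴴ) ∧
      ∀ i j, i ≠ j → ∀ x ∈ H i, ∀ y ∈ H j, killingForm ℂ SL6 x y = 0) ↔ MUB n := by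
  constructor
  · rintro ⟨H, h1, h2, h3⟩
    have hc := fun i x y hx hy => cartan_comm (H i) (h1 i).nilpotent (h2 i) (x := x) (y := y) hx hy
    choose v hv hd using fun i => exists_dg (Subtype.val '' (H i : Set SL6))
      (by rintro _ ⟨x, hx, rfl⟩ _ ⟨y, hy, rfl⟩; exact hc i x y hx hy)
      (by
        rintro _ ⟨x, hx, rfl⟩ _ ⟨y, hy, rfl⟩
        obtain ⟨y', hy', e⟩ := h2 i y hy
        rw [← e]
        exact hc i x y' hx hy')
    have hP : ∀ i k, P0 (hv i) k ∈ H i := by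
      intro i k
      rw [← (h1 i).self_normalizing, LieSubalgebra.mem_normalizer_iff]
      intro y hy
      have : ⁅P0 (hv i) k, y⁆ = 0 := Subtype.ext (by
        change (Pr (v i k) - (1 / 6 : ℂ) • 1) * y.1 - y.1 * (Pr (v i k) - (1 / 6 : ℂ) • 1) = 0
        rw [sub_mul, mul_sub, (hv i).dg_comm (dg_Pr _ k) (hd i _ ⟨y, hy, rfl⟩)]
        simp)
      rw [this]
      exact (H i).zero_mem
    refine ⟨v, hv, fun i j hij => ub_of_tr fun k l => ?_⟩
    have h4 := h3 i j hij _ (hP i k) _ (hP j l)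
    rw [killing_eq] at h4
    change 12 * ((Pr (v i k) - (1 / 6 : ℂ) • 1) * (Pr (v j l) - (1 / 6 : ℂ) • 1)).trace = 0 at h4
    simp only [sub_mul, mul_sub, Matrix.smul_mul, Matrix.mul_smul, Matrix.mul_one, Matrix.one_mul,
      Matrix.trace_sub, Matrix.trace_smul, (hv i).tr_Pr, (hv j).tr_Pr, Matrix.trace_one,
      Fintype.card_fin, smul_eq_mul] at h4
    push_cast at h4
    linear_combination h4 / 2
  · rintro ⟨v, hv, hu⟩
    refine ⟨fun i => Hd (hv i), fun i => Hd_cartan _, ?_, fun i j hij x hx y hy => ?_⟩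
    · rintro i x ⟨c, hc⟩
      refine ⟨⟨x.1ᴴ, by rw [mem_sl, Matrix.trace_conjTranspose, mem_sl.1 x.2, star_zero]⟩,
        ⟨star c, ?_⟩, rfl⟩
      change x.1ᴴ = _
      rw [hc, Matrix.conjTranspose_sum]
      simp [Pr_ct]
    · have := tr_dg (hv i) (hv j) (hu i j hij) hx hy
      rw [mem_sl.1 x.2, zero_mul] at this
      rw [killing_eq]
      linear_combination 2 * this

end Vale.Agent.N355B
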