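import Vale.Agent.N355B.Diag

/-! The robust form, and weighted designs made of bases. -/

set_option linter.unusedSectionVars false

namespace Vale.Agent.N355B

open Matrix Finset

/-- four almost orthonormal, almost unbiased families do not exist -/
theorem robust (h : ¬ MUB 4) : ∃ ε : ℝ, 0 < ε ∧ ∀ v : Fin 4 → Fin 6 → Fin 6 → ℂ,
    ∃ i j k l, ε ≤ |‖∑ r, star (v i k r) * v j l r‖ ^ 2 -
      if i = j then (if k = l then 1 else 0) else 1 / 6| := by
  let g : (Fin 4 → Fin 6 → Fin 6 → ℂ) → Fin 4 × Fin 4 × Fin 6 × Fin 6 → ℝ := fun v p =>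
    ‖∑ r, star (v p.1 p.2.2.1 r) * v p.2.1 p.2.2.2 r‖ ^ 2 -
      if p.1 = p.2.1 then (if p.2.2.1 = p.2.2.2 then 1 else 0) else 1 / 6
  have hg : Continuous g := by
    refine continuous_pi fun p => ?_
    simp only [g]
    fun_prop
  have hsq : ∀ x : Fin 6 → ℂ, ∑ r, star (x r) * x r = ((∑ r, ‖x r‖ ^ 2 : ℝ) : ℂ) := by
    intro x
    push_cast
    exact Finset.sum_congr rfl fun r _ => by rw [Complex.star_def, Complex.conj_mul']
  have h0 : ∀ v, g v ≠ 0 := by
    intro v hv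
    refine h ⟨v, fun i k l => ?_, fun i j hij k l => ?_⟩
    · have h1 := congrFun hv (i, i, k, l)
      simp only [g, if_true, Pi.zero_apply] at h1
      split_ifs at h1 ⊢ with hkl
      · subst hkl
        rw [hsq] at h1 ⊢
        have h2 : 0 ≤ ∑ r, ‖v i k r‖ ^ 2 := by positivity
        rw [Complex.norm_real, Real.norm_of_nonneg h2] at h1
        have h3 : ∑ r, ‖v i k r‖ ^ 2 = 1 := by nlinarith
        rw [h3]; rfl
      · simpa using h1
    · have h1 := congrFun hv (i, j, k, l)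
      simp only [g, if_neg hij, Pi.zero_apply] at h1
      linarith
  obtain ⟨v₀, _, hmin⟩ := (isCompact_closedBall (0 : Fin 4 → Fin 6 → Fin 6 → ℂ) 2).exists_isMinOn
    ⟨0, Metric.mem_closedBall_self (by norm_num)⟩ hg.norm.continuousOn
  refine ⟨min ‖g v₀‖ 1, lt_min (norm_pos_iff.2 (h0 v₀)) one_pos, fun v => ?_⟩
  by_contra hcon
  push Not at hcon
  have h1 : ‖g v‖ < min ‖g v₀‖ 1 :=
    (pi_norm_lt_iff (lt_min (norm_pos_iff.2 (h0 v₀)) one_pos)).2 fun p => hcon _ _ _ _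
  refine absurd (hmin (a := v) ?_) (not_le.2 (h1.trans_le (min_le_left _ _)))
  rw [mem_closedBall_zero_iff]
  refine (pi_norm_le_iff_of_nonneg (by norm_num)).2 fun i => (pi_norm_le_iff_of_nonneg
    (by norm_num)).2 fun k => (pi_norm_le_iff_of_nonneg (by norm_num)).2 fun r => ?_
  have h2 := (hcon i i k k).trans_le (min_le_right _ _)
  have h3 : 0 ≤ ∑ r, ‖v i k r‖ ^ 2 := by positivity
  rw [if_pos rfl, if_pos rfl, hsq, Complex.norm_real, Real.norm_of_nonneg h3] at h2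
  have h4 : ‖v i k r‖ ^ 2 ≤ ∑ r, ‖v i k r‖ ^ 2 :=
    Finset.single_le_sum (f := fun r => ‖v i k r‖ ^ 2) (fun _ _ => by positivity) (mem_univ r)
  have h5 := (abs_lt.1 h2).2
  by_contra h6
  have h7 : 4 < ‖v i k r‖ ^ 2 := by nlinarith
  nlinarith

/-- the weighted bases form a projective two-design -/
def Des {m : ℕ} (w : Fin m → ℝ) (v : Fin m → Fin 6 → Fin 6 → ℂ) : Prop :=
  ∀ r s t u, ∑ a, (w a : ℂ) * ∑ k, v a k r * v a k s * star (v a k t) * star (v a k u) =
    ((if r = t ∧ s = u then 1 else 0) + if r = u ∧ s = t then 1 else 0) / 7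

theorem ON.parseval {v : Fin 6 → Fin 6 → ℂ} (h : ON v) {x : Fin 6 → ℂ}
    (hx : ∑ r, star (x r) * x r = 1) : ∑ k, ‖∑ r, star (v k r) * x r‖ ^ 2 = 1 := by
  have h1 : ∑ k, (Pr (v k) * Pr x).trace = 1 := by
    rw [← Matrix.trace_sum, ← Finset.sum_mul, h.sum_Pr, Matrix.one_mul, ← hx]
    exact Finset.sum_congr rfl fun r _ => mul_comm _ _
  simp only [tr_Pr_mul] at h1
  exact_mod_cast h1

theorem Des.four {m : ℕ} {w : Fin m → ℝ} {v : Fin m → Fin 6 → Fin 6 → ℂ} (h : Des w v)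
    {x : Fin 6 → ℂ} (hx : ∑ r, star (x r) * x r = 1) :
    ∑ a, w a * ∑ k, (‖∑ r, star (v a k r) * x r‖ ^ 2) ^ 2 = 2 / 7 := by
  have h1 : ∀ y : Fin 6 → ℂ, (((‖∑ r, star (y r) * x r‖ ^ 2) ^ 2 : ℝ) : ℂ) =
      ∑ p : Fin 6 × Fin 6 × Fin 6 × Fin 6, (y p.1 * y p.2.1 * star (y p.2.2.1) * star (y p.2.2.2)) *
        (star (x p.1) * star (x p.2.1) * x p.2.2.1 * x p.2.2.2) := by
    intro y
    have h2 : star (∑ r, star (y r) * x r) = ∑ r, y r * star (x r) := by
      rw [star_sum]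
      exact Finset.sum_congr rfl fun t _ => by rw [star_mul, star_star, mul_comm]
    have h3 : ∑ r, ∑ s, ∑ t, ∑ u, (y r * y s * star (y t) * star (y u)) *
        (star (x r) * star (x s) * x t * x u) = (∑ r, star (y r) * x r) * ((∑ r, star (y r) * x r) *
          ((∑ r, y r * star (x r)) * ∑ r, y r * star (x r))) := by
      simp only [Finset.sum_mul, Finset.mul_sum]
      refine Finset.sum_congr rfl fun r _ => Finset.sum_congr rfl fun s _ =>
        Finset.sum_congr rfl fun t _ => Finset.sum_congr rfl fun u _ => by ring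
    simp only [Fintype.sum_prod_type]
    rw [h3, ← h2]
    push_cast
    rw [← Complex.conj_mul', Complex.star_def]
    ring
  have h4 : ((∑ a, w a * ∑ k, (‖∑ r, star (v a k r) * x r‖ ^ 2) ^ 2 : ℝ) : ℂ) =
      ∑ p : Fin 6 × Fin 6 × Fin 6 × Fin 6, (∑ a, (w a : ℂ) *
        ∑ k, v a k p.1 * v a k p.2.1 * star (v a k p.2.2.1) * star (v a k p.2.2.2)) *
        (star (x p.1) * star (x p.2.1) * x p.2.2.1 * x p.2.2.2) := by
    simp only [Complex.ofReal_mul, Complex.ofReal_sum, h1, Finset.sum_mul]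
    rw [Finset.sum_comm]
    refine Finset.sum_congr rfl fun a _ => ?_
    rw [Finset.sum_comm, Finset.mul_sum]
    refine Finset.sum_congr rfl fun p _ => ?_
    rw [← Finset.sum_mul]
    ring
  simp only [h _ _ _ _, Fintype.sum_prod_type, add_div, add_mul, Finset.sum_add_distrib, ite_and,
    ite_div, ite_mul, zero_div, zero_mul, Finset.sum_ite_irrel, Finset.sum_ite_eq,
    Finset.sum_const_zero, Finset.mem_univ, if_true] at h4
  have h5 : ∑ r, ∑ s, 1 / 7 * (star (x r) * star (x s) * x r * x s) = 1 / 7 := by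
    calc _ = 1 / 7 * ((∑ r, star (x r) * x r) * ∑ r, star (x r) * x r) := by
          rw [Finset.sum_mul_sum, Finset.mul_sum]
          refine Finset.sum_congr rfl fun r _ => ?_
          rw [Finset.mul_sum]
          exact Finset.sum_congr rfl fun s _ => by ring
      _ = _ := by rw [hx]; ring
  have h6 : ∑ r, ∑ s, 1 / 7 * (star (x r) * star (x s) * x s * x r) = 1 / 7 := by
    refine Eq.trans ?_ h5
    exact Finset.sum_congr rfl fun r _ => Finset.sum_congr rfl fun s _ => by ring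
  rw [h5, h6] at h4
  have h7 : ((∑ a, w a * ∑ k, (‖∑ r, star (v a k r) * x r‖ ^ 2) ^ 2 : ℝ) : ℂ) = ((2 / 7 : ℝ) : ℂ) := by
    rw [h4]; norm_num
  exact_mod_cast h7

theorem Des.sum_w {m : ℕ} {w : Fin m → ℝ} {v : Fin m → Fin 6 → Fin 6 → ℂ} (h : Des w v)
    (hv : ∀ a, ON (v a)) : ∑ a, w a = 1 := by
  have h1 : ∑ r, ∑ s, ∑ a, (w a : ℂ) * ∑ k, v a k r * v a k s * star (v a k r) * star (v a k s) =
      ∑ a, (w a : ℂ) * 6 := by
    rw [Finset.sum_congr rfl fun r _ => Finset.sum_comm, Finset.sum_comm]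
    refine Finset.sum_congr rfl fun a _ => ?_
    simp only [← Finset.mul_sum]
    congr 1
    rw [Finset.sum_congr rfl fun r _ => Finset.sum_comm, Finset.sum_comm]
    calc _ = ∑ k : Fin 6, (∑ r, star (v a k r) * v a k r) * ∑ r, star (v a k r) * v a k r := by
          refine Finset.sum_congr rfl fun k _ => ?_
          rw [Finset.sum_mul_sum]
          exact Finset.sum_congr rfl fun r _ => Finset.sum_congr rfl fun s _ => by ring
      _ = _ := by
          simp only [hv a _ _, if_true]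
          norm_num
  simp only [h _ _ _ _, ← Finset.sum_mul] at h1
  have h2 : ∑ r : Fin 6, ∑ s : Fin 6, ((if True ∧ True then 1 else 0) +
      if r = s ∧ s = r then 1 else 0 : ℂ) / 7 = 6 := by
    simp [Fin.sum_univ_succ]
    norm_num
  rw [h2] at h1
  have h3 : ((∑ a, w a : ℝ) : ℂ) = 1 := by
    push_cast
    linear_combination -h1 / 6
  exact_mod_cast h3

/-- a design made of at most seven bases is a complete set of unbiased bases -/
theorem Des.eight (h7 : ¬ MUB 7) {m : ℕ} {w : Fin m → ℝ} {v : Fin m → Fin 6 → Fin 6 → ℂ}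
    (hw : ∀ a, 0 ≤ w a) (hv : ∀ a, ON (v a)) (h : Des w v) : 8 ≤ m := by
  have hs := h.sum_w hv
  have hx : ∀ b l, ∑ r, star (v b l r) * v b l r = 1 := fun b l => by rw [hv b, if_pos rfl]
  have h1 : ∀ b l, ∑ a, w a * ∑ k, (‖∑ r, star (v a k r) * v b l r‖ ^ 2 - 1 / 6) ^ 2 = 5 / 42 := by
    intro b l
    have h2 : ∀ a, ∑ k, (‖∑ r, star (v a k r) * v b l r‖ ^ 2 - 1 / 6) ^ 2 =
        ∑ k, (‖∑ r, star (v a k r) * v b l r‖ ^ 2) ^ 2 - 1 / 6 := by
      intro a
      have h3 := (hv a).parseval (hx b l)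
      simp only [sub_sq, Finset.sum_add_distrib, Finset.sum_sub_distrib, ← Finset.sum_mul,
        ← Finset.mul_sum, h3]
      norm_num
      ring
    simp only [h2, mul_sub, Finset.sum_sub_distrib, ← Finset.sum_mul, h.four (hx b l), hs]
    norm_num
  have h2 : ∀ b l, ∑ k, (‖∑ r, star (v b k r) * v b l r‖ ^ 2 - 1 / 6) ^ 2 = 5 / 6 := by
    intro b l
    simp only [hv b _ _]
    fin_cases l <;> simp [Fin.sum_univ_succ] <;> norm_num
  have h3 : ∀ b l, w b * (5 / 6) + ∑ a ∈ univ.erase b,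
      w a * ∑ k, (‖∑ r, star (v a k r) * v b l r‖ ^ 2 - 1 / 6) ^ 2 = 5 / 42 := by
    intro b l
    rw [← h2 b l, ← h1 b l, ← Finset.add_sum_erase _ _ (mem_univ b)]
  have h4 : ∀ b l, ∀ a ∈ univ.erase b,
      0 ≤ w a * ∑ k, (‖∑ r, star (v a k r) * v b l r‖ ^ 2 - 1 / 6) ^ 2 := fun b l a _ =>
    mul_nonneg (hw a) (by positivity)
  have h5 : ∀ b, 0 ≤ 1 / 7 - w b := fun b => by
    have := Finset.sum_nonneg (h4 b 0)
    linarith [h3 b 0]
  by_contra hm
  have h6 : ∑ b, (1 / 7 - w b) = m / 7 - 1 := by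
    rw [Finset.sum_sub_distrib, hs]
    simp [div_eq_mul_inv]
  have h8 : (7 : ℝ) ≤ m := by
    have := Finset.sum_nonneg fun b (_ : b ∈ univ) => h5 b
    linarith
  obtain rfl : m = 7 := by
    have : 7 ≤ m := by exact_mod_cast h8
    omega
  have h9 : ∀ b, w b = 1 / 7 := fun b => by
    have := (Finset.sum_eq_zero_iff_of_nonneg fun b _ => h5 b).1 (by rw [h6]; norm_num) b
      (mem_univ b)
    linarith
  refine h7 ⟨v, hv, fun a b hab k l => ?_⟩
  have h10 := (Finset.sum_eq_zero_iff_of_nonneg (h4 b l)).1 (by linarith [h3 b l, h9 b]) a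
    (Finset.mem_erase.2 ⟨hab, mem_univ a⟩)
  rw [h9 a, mul_eq_zero, or_iff_right (by norm_num)] at h10
  have h11 := (Finset.sum_eq_zero_iff_of_nonneg fun _ _ => sq_nonneg _).1 h10 k (mem_univ k)
  linarith [pow_eq_zero_iff (two_ne_zero) |>.1 h11]

end Vale.Agent.N355B
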