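import Mathlib.RingTheory.RootsOfUnity.Complex
import Vale.Agent.N355B.Robust

/-! A weighted design made of eight bases. -/

set_option linter.unusedSectionVars false

namespace Vale.Agent.N355B

open Matrix Finset

theorem root_sum {ω : ℂ} {n : ℕ} (h : IsPrimitiveRoot ω n) (N : ℕ) :
    ∑ j : Fin n, (ω ^ N) ^ (j : ℕ) = if n ∣ N then (n : ℂ) else 0 := by
  split_ifs with hN
  · rw [(h.pow_eq_one_iff_dvd N).2 hN]
    simp
  · have h1 : ω ^ N ≠ 1 := fun h1 => hN ((h.pow_eq_one_iff_dvd N).1 h1)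
    rw [Fin.sum_univ_eq_sum_range (fun j => (ω ^ N) ^ j), geom_sum_eq h1, ← pow_mul, mul_comm,
      pow_mul, h.pow_eq_one]
    simp

theorem root_star {ω : ℂ} {n : ℕ} (h : IsPrimitiveRoot ω (n + 1)) : star ω = ω ^ n := by
  have h1 : ‖ω‖ = 1 := h.norm'_eq_one (Nat.succ_ne_zero n)
  have h2 : ω ≠ 0 := h.ne_zero (Nat.succ_ne_zero n)
  refine mul_left_cancel₀ h2 ?_
  rw [← pow_succ', h.pow_eq_one, Complex.star_def, Complex.mul_conj', h1]
  simp

/-- powers of three modulo seven -/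
def pw : Fin 6 → ℕ := ![1, 3, 2, 6, 4, 5]

theorem pw_key : ∀ r s t u : Fin 6, (6 ∣ (r : ℕ) + s + 5 * t + 5 * u ∧
    7 ∣ pw r + pw s + 6 * pw t + 6 * pw u) ↔ (r = t ∧ s = u) ∨ (r = u ∧ s = t) := by
  decide +kernel

theorem six_key : ∀ k l : Fin 6, (6 ∣ 5 * (k : ℕ) + l) ↔ k = l := by decide

theorem ite_key (A B C D : Prop) [Decidable A] [Decidable B] [Decidable C] [Decidable D]
    (h : C ∧ D ↔ A ∨ B) :
    (((1 / 7 : ℝ) : ℂ) * if A ∧ B then 1 else 0) + ((6 / 49 : ℝ) : ℂ) *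
      ((1 / 36 * if D then ((7 : ℕ) : ℂ) else 0) * if C then ((6 : ℕ) : ℂ) else 0) =
      ((if A then 1 else 0) + if B then 1 else 0) / 7 := by
  by_cases hA : A <;> by_cases hB : B <;> by_cases hC : C <;> by_cases hD : D <;>
    simp_all <;> norm_num

theorem exists_des : ∃ (w : Fin 8 → ℝ) (v : Fin 8 → Fin 6 → Fin 6 → ℂ),
    (∀ a, 0 ≤ w a) ∧ (∀ a, ON (v a)) ∧ Des w v := by
  obtain ⟨α, hα⟩ : ∃ α : ℂ, IsPrimitiveRoot α 6 := ⟨_, Complex.isPrimitiveRoot_exp 6 (by norm_num)⟩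
  obtain ⟨β, hβ⟩ : ∃ β : ℂ, IsPrimitiveRoot β 7 := ⟨_, Complex.isPrimitiveRoot_exp 7 (by norm_num)⟩
  have hα' : star α = α ^ 5 := root_star hα
  have hβ' : star β = β ^ 6 := root_star hβ
  obtain ⟨c, hc, hc'⟩ : ∃ c : ℂ, star c = c ∧ c * c = 1 / 6 := by
    refine ⟨((√(1 / 6) : ℝ) : ℂ), Complex.conj_ofReal _, ?_⟩
    rw [← Complex.ofReal_mul, Real.mul_self_sqrt (by norm_num)]
    norm_num
  refine ⟨Fin.cons (1 / 7) fun _ => 6 / 49, Fin.cons (fun k r => if k = r then 1 else 0)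
    fun (a : Fin 7) j k => c * α ^ ((k : ℕ) * j) * β ^ (pw k * a), ?_, ?_, ?_⟩
  · refine Fin.cases ?_ fun a => ?_ <;> norm_num
  · refine Fin.cases ?_ fun a => ?_
    · intro k l
      simp
    · intro k l
      simp only [Fin.cons_succ]
      have h1 : ∀ r : Fin 6, star (c * α ^ ((r : ℕ) * k) * β ^ (pw r * a)) *
          (c * α ^ ((r : ℕ) * l) * β ^ (pw r * a)) = 1 / 6 * (α ^ (5 * (k : ℕ) + l)) ^ (r : ℕ) := by
        intro r
        have h2 : (β ^ 7) ^ (pw r * a) = 1 := by rw [hβ.pow_eq_one, one_pow]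
        simp only [star_mul, star_pow, hα', hβ', hc]
        rw [← hc', ← mul_one (c * c * _), ← h2]
        ring
      simp only [h1, ← Finset.mul_sum, root_sum hα, six_key]
      split_ifs <;> norm_num
  · intro r s t u
    rw [Fin.sum_univ_succ]
    simp only [Fin.cons_succ, Fin.cons_zero]
    have h1 : ∀ (a : Fin 7) (j : Fin 6), c * α ^ ((r : ℕ) * j) * β ^ (pw r * a) *
        (c * α ^ ((s : ℕ) * j) * β ^ (pw s * a)) * star (c * α ^ ((t : ℕ) * j) * β ^ (pw t * a)) *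
        star (c * α ^ ((u : ℕ) * j) * β ^ (pw u * a)) =
        1 / 36 * (β ^ (pw r + pw s + 6 * pw t + 6 * pw u)) ^ (a : ℕ) *
          (α ^ ((r : ℕ) + s + 5 * t + 5 * u)) ^ (j : ℕ) := by
      intro a j
      have h2 : (1 / 36 : ℂ) = c * c * (c * c) := by rw [hc']; norm_num
      simp only [star_mul, star_pow, hα', hβ', hc]
      rw [h2]
      ring
    have h3 : ∑ k : Fin 6, (if k = r then 1 else 0 : ℂ) * (if k = s then 1 else 0) *
        star (if k = t then 1 else 0 : ℂ) * star (if k = u then 1 else 0 : ℂ) =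
        if (r = t ∧ s = u) ∧ r = u ∧ s = t then 1 else 0 := by
      rw [Finset.sum_eq_single r (fun k _ hk => by simp [hk]) (by simp)]
      by_cases h1 : r = s <;> by_cases h2 : r = t <;> by_cases h3 : r = u <;> simp_all
      all_goals (intro h; subst h; simp_all)
    simp only [h1, ← Finset.mul_sum, root_sum hα, h3, ← Finset.sum_mul, root_sum hβ]
    exact ite_key _ _ _ _ (pw_key r s t u)

end Vale.Agent.N355B
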