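import Vale.Agent.N355B.Cartan
import Vale.Agent.N355B.Design

/-! Transfer from the maximal number of unbiased bases. -/

namespace Vale.Agent.N355B

open Matrix

theorem all_of (h : IsGreatest {n : ℕ | MUB n} 3) :
    IsGreatest {n : ℕ | ∃ A : Fin n → StarSubalgebra ℂ (Matrix (Fin 6) (Fin 6) ℂ),
      (∀ i, Set.centralizer (A i : Set (Matrix (Fin 6) (Fin 6) ℂ)) = A i) ∧
      ∀ i j, i ≠ j → ∀ a ∈ A i, ∀ b ∈ A j, 6 * (a * b).trace = a.trace * b.trace} 3 ∧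
    IsGreatest {n : ℕ | ∃ H : Fin n → LieSubalgebra ℂ (LieAlgebra.SpecialLinear.sl (Fin 6) ℂ),
      (∀ i, (H i).IsCartanSubalgebra) ∧ (∀ i, ∀ x ∈ H i, ∃ y ∈ H i, y.1 = x.1ᴴ) ∧
      ∀ i j, i ≠ j → ∀ x ∈ H i, ∀ y ∈ H j,
        killingForm ℂ (LieAlgebra.SpecialLinear.sl (Fin 6) ℂ) x y = 0} 3 ∧
    (∃ ε : ℝ, 0 < ε ∧ ∀ v : Fin 4 → Fin 6 → Fin 6 → ℂ, ∃ i j k l,
      ε ≤ |‖∑ r, star (v i k r) * v j l r‖ ^ 2 -
        if i = j then (if k = l then 1 else 0) else 1 / 6|) ∧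
    IsLeast {m : ℕ | ∃ (w : Fin m → ℝ) (v : Fin m → Fin 6 → Fin 6 → ℂ), (∀ a, 0 ≤ w a) ∧
      (∀ a k l, ∑ r, star (v a k r) * v a l r = if k = l then 1 else 0) ∧
      ∀ r s t u, ∑ a, (w a : ℂ) * ∑ k, v a k r * v a k s * star (v a k t) * star (v a k u) =
        ((if r = t ∧ s = u then 1 else 0) + if r = u ∧ s = t then 1 else 0) / 7} 8 := by
  have h4 : ¬ MUB 4 := fun h4 => absurd (h.2 h4) (by norm_num)
  have h7 : ¬ MUB 7 := fun h7 => absurd (h.2 h7) (by norm_num)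
  refine ⟨⟨(masa_iff 3).2 h.1, fun n hn => h.2 ((masa_iff n).1 hn)⟩,
    ⟨(cartan_iff 3).2 h.1, fun n hn => h.2 ((cartan_iff n).1 hn)⟩, robust h4, exists_des, ?_⟩
  rintro m ⟨w, v, hw, hv, hd⟩
  exact Des.eight h7 hw hv hd

end Vale.Agent.N355B
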